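import Vale.Agent.P088.R2.H968.B.Slot
import Vale.Agent.P088.R2.H961.F.HyPb
import Vale.Agent.P088.R2.H644.N.PkL

/-!
# P088, stage 3, zone B1: the cells as families of pairs of slots

`sl2_cell`: helper968's `Sl2` for a family of cell data `c : α → CD n` on zones `Z x` contained in
boxes around `p x`: `x - y = ∑ q_i M_i`, `|q_i| ≤ √(μ / e)`.
-/

open Set Filter
open scoped ContDiff Topology Matrix

noncomputable section

namespace Vale.Agent.P088.R2.H768.B1

open Vale.Agent.P088.LR Vale.Agent.P088.HY Vale.Agent.P088.R2.H961.F Vale.Agent.P088.R2.H464.B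
open Vale.Agent.P088.R2.H968.B Vale.Agent.P088.R2.H31.EP

variable {n : ℕ}

/-- Open boxes. -/
def Box (B : ℝ) (p : V n) : Set (V n) := {w | ∀ j, |w j - p j| < B}

theorem Box_open (B : ℝ) (p : V n) : IsOpen (Box B p) := by
  have e : Box B p = ⋂ j, {w : V n | |w j - p j| < B} := by
    ext w
    simp [Box]
  rw [e]
  exact isOpen_iInter_of_finite fun j =>
    isOpen_lt (((continuous_apply j).sub continuous_const).abs) continuous_const

theorem Box_convex (B : ℝ) (p : V n) : Convex ℝ (Box B p) := by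
  intro x hx y hy a b ha hb hab j
  have h1 := abs_lt.1 (hx j)
  have h2 := abs_lt.1 (hy j)
  have e : (a • x + b • y) j - p j = a * (x j - p j) + b * (y j - p j) := by
    simp only [Pi.add_apply, Pi.smul_apply, smul_eq_mul]
    have : p j = (a + b) * p j := by rw [hab, one_mul]
    linear_combination -this
  show |(a • x + b • y) j - p j| < B
  rw [e, abs_lt]
  rcases ha.eq_or_lt with h0 | h0
  · have hb1 : b = 1 := by linarith
    rw [← h0, hb1]
    constructor <;> linarith [h2.1, h2.2]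
  · constructor
    · nlinarith [mul_le_mul_of_nonneg_left h2.1.le hb, mul_lt_mul_of_pos_left h1.1 h0]
    · nlinarith [mul_le_mul_of_nonneg_left h2.2.le hb, mul_lt_mul_of_pos_left h1.2 h0]

/-- `x - y = ∑ (N (x - y))_i M_i`. -/
theorem dif_frame (c : CD n) (v : V n) :
    v = ∑ i, (∑ k, c.N i k * v k) • c.M.col i := by
  have h : c.M * c.N = 1 := mul_eq_one_comm.1 c.nm
  funext j
  have h1 : ∀ k, ∑ i, c.M j i * c.N i k = (1 : Matrix (Fin n) (Fin n) ℝ) j k := fun k => by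
    rw [← Matrix.mul_apply, h]
  simp only [Finset.sum_apply, Pi.smul_apply, smul_eq_mul, Matrix.col_apply]
  simp_rw [Finset.sum_mul]
  rw [Finset.sum_comm]
  have h2 : ∀ k, ∑ i, c.N i k * v k * c.M j i = (1 : Matrix (Fin n) (Fin n) ℝ) j k * v k := by
    intro k
    rw [← h1 k, Finset.sum_mul]
    exact Finset.sum_congr rfl fun i _ => by ring
  simp_rw [h2]
  simp [Matrix.one_apply]

/-- `|q_i| ≤ √(μ / e)`. -/
theorem q_le_fr {α : Type} (c : α → CD n) (x : α) (z : VV n) (i : Fin n) :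
    |∑ k, (c x).N i k * (z.1 - z.2) k| ≤ H961.F.fr c x z := by
  have he := fe_pos c x z
  unfold fe at he
  refine Real.abs_le_sqrt ?_
  rw [le_div_iff₀ he]
  change _ ≤ 1 + ((c x).T.e : VV n → ℝ) z * ((c x).T.qq : VV n → ℝ) z
  rw [T_qq]
  have h1 : (∑ k, (c x).N i k * (z.1 - z.2) k) ^ 2 ≤
      ∑ i, (∑ k, (c x).N i k * (z.1 k - z.2 k)) ^ 2 :=
    Finset.single_le_sum (f := fun i => (∑ k, (c x).N i k * (z.1 k - z.2 k)) ^ 2)
      (fun _ _ => sq_nonneg _) (Finset.mem_univ i)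
  have h2 := mul_le_mul_of_nonneg_left h1 he.le
  linarith

/-- **`Sl2` for a family of cells**: any convex open sets `U x` containing the slots. -/
theorem sl2_gen {α : Type} (c : α → CD n) (Z : α → Set (VV n)) (hZ : ∀ x, IsOpen (Z x))
    (U : α → Set (V n)) (hU : ∀ x, IsOpen (U x)) (cv : ∀ x, Convex ℝ (U x))
    (h1 : ∀ x, ∀ z ∈ Z x, z.1 ∈ U x) (h2 : ∀ x, ∀ z ∈ Z x, z.2 ∈ U x)
    (hr : ∀ x, ∀ z ∈ Z x, H961.F.fr c x z ≤ 1) :
    Sl2 (Gf c Z hZ) (fun x i => (c x).M.col i) U hU (H961.F.fr c) where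
  ha _ _ := rfl
  hb _ _ := rfl
  cv x := cv x
  m1 x z hz := h1 x z hz
  m2 x z hz := h2 x z hz
  q x z _ := ⟨fun i => ∑ k, (c x).N i k * (z.1 - z.2) k, dif_frame (c x) (z.1 - z.2),
    fun i => q_le_fr c x z i⟩
  rr := ⟨fun _ _ _ => Real.sqrt_nonneg _, hr⟩

/-- `fr ≤ 1` where `μ ≤ e`. -/
theorem fr_le_one {α : Type} (c : α → CD n) {x : α} {z : VV n}
    (h : (H516.B.mu (c x).T : VV n → ℝ) z ≤ fe c x z) : H961.F.fr c x z ≤ 1 := by
  have he := fe_pos c x z
  unfold H961.F.fr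
  rw [Real.sqrt_le_one]
  exact (div_le_one he).2 h

/-- The slots of a pair with `r < 1` whose midpoint is in a box. -/
theorem box_slots {q : Cst} {d : Pk n} (hg : H644.Pf.Gc n q) (h : PkOk q d) {A : ℝ} {p : V n}
    {z : VV n} (hm : ∀ j, |H464.Cu.mid z j - p j| < 3 / 2 * A) (hr : d.r2 z < 1) :
    z.1 ∈ Box (3 / 2 * (A + 1)) p ∧ z.2 ∈ Box (3 / 2 * (A + 1)) p := by
  have h1 : √(d.r2 z) ≤ 1 := by
    rw [Real.sqrt_le_one]
    exact hr.le
  have key : ∀ j, |z.1 j - z.2 j| ≤ 3 := fun j => by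
    have := H644.Pf.dif_r hg h z j
    have e : H464.Cu.dif z j = z.1 j - z.2 j := rfl
    rw [e] at this
    linarith
  have em : ∀ j, H464.Cu.mid z j = 1 / 2 * (z.1 j + z.2 j) := fun j => by
    simp [H464.Cu.mid]
  constructor
  · intro j
    have h2 := abs_lt.1 (hm j)
    have h3 := abs_le.1 (key j)
    rw [em] at h2
    rw [abs_lt]
    constructor <;> linarith [h2.1, h2.2, h3.1, h3.2]
  · intro j
    have h2 := abs_lt.1 (hm j)
    have h3 := abs_le.1 (key j)
    rw [em] at h2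
    rw [abs_lt]
    constructor <;> linarith [h2.1, h2.2, h3.1, h3.2]

end Vale.Agent.P088.R2.H768.B1
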